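import Vale.Agent.Lib.P072.Defs

/-!
Sign of the mass-action field of a network of the class `LineWR` near the coordinate
hyperplanes and far from them.
-/

namespace Vale.Agent.Lib.P072

open Finset

variable {d : ℕ}

/-- Species `i` is changed by some reaction. -/
def Net.Active (N : Net d) (i : Fin d) : Prop := ∃ r ∈ N.R, r.1 i ≠ r.2 i

theorem pathA (N : Net d) (i : Fin d) {a b : Fin d → ℕ}
    (h : Relation.ReflTransGen (N.lineStep i) a b) :
    a i < b i → ∃ z z', N.lineStep i z z' ∧ (∀ j, j ≠ i → z j = a j) ∧ z i ≤ a i ∧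
      z i < z' i := by
  induction h using Relation.ReflTransGen.head_induction_on with
  | refl => intro h; exact absurd h (lt_irrefl _)
  | @head a c h' _ ih =>
    intro hlt
    by_cases hac : a i < c i
    · exact ⟨a, c, h', fun _ _ => rfl, le_rfl, hac⟩
    · obtain ⟨z, z', hz, hz1, hz2, hz3⟩ := ih (lt_of_le_of_lt (not_lt.1 hac) hlt)
      exact ⟨z, z', hz, fun j hj => (hz1 j hj).trans (h'.2 j hj), hz2.trans (not_lt.1 hac), hz3⟩

theorem pathB (N : Net d) (i : Fin d) {a b : Fin d → ℕ}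
    (h : Relation.ReflTransGen (N.lineStep i) a b) :
    b i < a i → ∃ z z', N.lineStep i z z' ∧ (∀ j, j ≠ i → z j = a j) ∧ a i ≤ z i ∧
      z' i < z i := by
  induction h using Relation.ReflTransGen.head_induction_on with
  | refl => intro h; exact absurd h (lt_irrefl _)
  | @head a c h' _ ih =>
    intro hlt
    by_cases hac : c i < a i
    · exact ⟨a, c, h', fun _ _ => rfl, le_rfl, hac⟩
    · obtain ⟨z, z', hz, hz1, hz2, hz3⟩ := ih (lt_of_lt_of_le hlt (not_lt.1 hac))
      exact ⟨z, z', hz, fun j hj => (hz1 j hj).trans (h'.2 j hj), (not_lt.1 hac).trans hz2, hz3⟩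

theorem combA {N : Net d} (hN : N.LineWR) {r : (Fin d → ℕ) × (Fin d → ℕ)} (hr : r ∈ N.R)
    {i : Fin d} (hdown : r.2 i < r.1 i) :
    ∃ q ∈ N.R, q.1 i < q.2 i ∧ (∀ j, j ≠ i → q.1 j = r.1 j) ∧ q.1 i + 1 ≤ r.1 i := by
  obtain ⟨i', h1, h2⟩ := hN r hr
  have hii : i' = i := by
    by_contra hne
    have := h1 i (fun h => hne h.symm)
    omega
  subst hii
  obtain ⟨z, z', hz, hz1, hz2, hz3⟩ := pathA N i' h2 hdown
  exact ⟨(z, z'), hz.1, hz3, fun j hj => (hz1 j hj).trans (h1 j hj), by simp only; omega⟩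

theorem combB {N : Net d} (hN : N.LineWR) {r : (Fin d → ℕ) × (Fin d → ℕ)} (hr : r ∈ N.R)
    {i : Fin d} (hup : r.1 i < r.2 i) :
    ∃ q ∈ N.R, q.2 i < q.1 i ∧ (∀ j, j ≠ i → q.1 j = r.1 j) ∧ r.1 i + 1 ≤ q.1 i := by
  obtain ⟨i', h1, h2⟩ := hN r hr
  have hii : i' = i := by
    by_contra hne
    have := h1 i (fun h => hne h.symm)
    omega
  subst hii
  obtain ⟨z, z', hz, hz1, hz2, hz3⟩ := pathB N i' h2 hup
  exact ⟨(z, z'), hz.1, hz3, fun j hj => (hz1 j hj).trans (h1 j hj), by simp only; omega⟩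

theorem mono_pos {x : Fin d → ℝ} (hx : ∀ j, 0 < x j) (y : Fin d → ℕ) : 0 < mono x y :=
  Finset.prod_pos (fun j _ => pow_pos (hx j) _)

theorem mono_split (x : Fin d → ℝ) (y : Fin d → ℕ) (i : Fin d) :
    mono x y = x i ^ y i * ∏ j ∈ univ.erase i, x j ^ y j := by
  unfold mono
  rw [Finset.mul_prod_erase univ (fun j => x j ^ y j) (mem_univ i)]

theorem mono_le_low {x : Fin d → ℝ} (hx : ∀ j, 0 < x j) {i : Fin d} (hxi : x i ≤ 1)
    {y z : Fin d → ℕ} (hoth : ∀ j, j ≠ i → z j = y j) (hi : z i + 1 ≤ y i) :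
    mono x y ≤ x i * mono x z := by
  rw [mono_split x y i, mono_split x z i]
  have h1 : ∏ j ∈ univ.erase i, x j ^ y j = ∏ j ∈ univ.erase i, x j ^ z j :=
    Finset.prod_congr rfl (fun j hj => by rw [hoth j (Finset.ne_of_mem_erase hj)])
  rw [h1, ← mul_assoc]
  apply mul_le_mul_of_nonneg_right _ (Finset.prod_nonneg (fun j _ => pow_nonneg (hx j).le _))
  calc x i ^ y i ≤ x i ^ (z i + 1) := pow_le_pow_of_le_one (hx i).le hxi hi
    _ = x i * x i ^ z i := pow_succ' _ _

theorem mono_le_high {x : Fin d → ℝ} (hx : ∀ j, 0 < x j) {i : Fin d} (hxi : 1 ≤ x i)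
    {y z : Fin d → ℕ} (hoth : ∀ j, j ≠ i → z j = y j) (hi : y i + 1 ≤ z i) :
    x i * mono x y ≤ mono x z := by
  rw [mono_split x y i, mono_split x z i]
  have h1 : ∏ j ∈ univ.erase i, x j ^ y j = ∏ j ∈ univ.erase i, x j ^ z j :=
    Finset.prod_congr rfl (fun j hj => by rw [hoth j (Finset.ne_of_mem_erase hj)])
  rw [h1, ← mul_assoc]
  apply mul_le_mul_of_nonneg_right _ (Finset.prod_nonneg (fun j _ => pow_nonneg (hx j).le _))
  calc x i * x i ^ y i = x i ^ (y i + 1) := (pow_succ' _ _).symm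
    _ ≤ x i ^ z i := pow_le_pow_right₀ hxi hi

theorem mono_mono {a x : Fin d → ℝ} (ha : ∀ j, 0 < a j) (hax : ∀ j, a j ≤ x j)
    (y : Fin d → ℕ) : mono a y ≤ mono x y :=
  Finset.prod_le_prod (fun j _ => pow_nonneg (ha j).le _)
    (fun j _ => pow_le_pow_left₀ (ha j).le (hax j) _)

/-- Sum of the source monomials of the reactions that increase species `i`. -/
noncomputable def upS (N : Net d) (x : Fin d → ℝ) (i : Fin d) : ℝ :=
  ∑ r ∈ N.R.filter (fun r => r.1 i < r.2 i), mono x r.1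

/-- Sum of the source monomials of the reactions that decrease species `i`. -/
noncomputable def dnS (N : Net d) (x : Fin d → ℝ) (i : Fin d) : ℝ :=
  ∑ r ∈ N.R.filter (fun r => r.2 i < r.1 i), mono x r.1

/-- Total rate-weighted change of species `i`. -/
noncomputable def Cc (N : Net d) (i : Fin d) : ℝ := ∑ r ∈ N.R, N.k r * |rvec r i|

theorem field_ge (N : Net d) (hN : N.LineWR) {c : ℝ} (hc0 : 0 < c)
    (hc : ∀ r ∈ N.R, c ≤ N.k r) {x : Fin d → ℝ} (hx : ∀ j, 0 < x j) {i : Fin d}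
    (hxi : x i ≤ 1) : (c - Cc N i * x i) * upS N x i ≤ N.field x i := by
  have hS : 0 ≤ upS N x i := Finset.sum_nonneg (fun r _ => (mono_pos hx _).le)
  have key : ∀ r ∈ N.R, (if r.1 i < r.2 i then c * mono x r.1 else 0)
      - N.k r * |rvec r i| * (x i * upS N x i) ≤ N.k r * mono x r.1 * rvec r i := by
    intro r hr
    have hk : c ≤ N.k r := hc r hr
    have hm : 0 < mono x r.1 := mono_pos hx _
    have hk0 : 0 ≤ N.k r * |rvec r i| := mul_nonneg (hc0.le.trans hk) (abs_nonneg _)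
    have hU : 0 ≤ x i * upS N x i := mul_nonneg (hx i).le hS
    rcases lt_trichotomy (r.1 i) (r.2 i) with h | h | h
    · rw [if_pos h]
      have h1 : (1 : ℝ) ≤ rvec r i := by
        unfold rvec
        have : (r.1 i : ℝ) + 1 ≤ (r.2 i : ℝ) := by exact_mod_cast h
        linarith
      have h2 : 0 ≤ N.k r * |rvec r i| * (x i * upS N x i) := mul_nonneg hk0 hU
      have h3 : c * mono x r.1 ≤ N.k r * mono x r.1 := mul_le_mul_of_nonneg_right hk hm.le
      have h4 : N.k r * mono x r.1 * 1 ≤ N.k r * mono x r.1 * rvec r i :=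
        mul_le_mul_of_nonneg_left h1 (mul_nonneg (hc0.le.trans hk) hm.le)
      linarith
    · rw [if_neg (by omega)]
      have h0 : rvec r i = 0 := by unfold rvec; rw [h]; ring
      rw [h0]; simp
    · rw [if_neg (by omega)]
      obtain ⟨q, hq, hqup, hqoth, hqi⟩ := combA hN hr h
      have h1 : mono x r.1 ≤ x i * mono x q.1 := mono_le_low hx hxi hqoth hqi
      have h2 : mono x q.1 ≤ upS N x i := by
        have hmem : q ∈ N.R.filter (fun r => r.1 i < r.2 i) := Finset.mem_filter.2 ⟨hq, hqup⟩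
        unfold upS
        exact Finset.single_le_sum (f := fun r => mono x r.1)
          (fun r _ => (mono_pos hx _).le) hmem
      have hneg : rvec r i < 0 := by
        unfold rvec
        have : (r.2 i : ℝ) < (r.1 i : ℝ) := by exact_mod_cast h
        linarith
      have h4 : mono x r.1 ≤ x i * upS N x i :=
        h1.trans (mul_le_mul_of_nonneg_left h2 (hx i).le)
      have e : N.k r * mono x r.1 * rvec r i = -(N.k r * |rvec r i| * mono x r.1) := by
        rw [abs_of_neg hneg]; ring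
      rw [e]
      have := mul_le_mul_of_nonneg_left h4 hk0
      linarith
  have e1 : ∑ r ∈ N.R, (if r.1 i < r.2 i then c * mono x r.1 else 0) = c * upS N x i := by
    unfold upS; rw [Finset.mul_sum, Finset.sum_filter]
  have e2 : ∑ r ∈ N.R, N.k r * |rvec r i| * (x i * upS N x i)
      = Cc N i * (x i * upS N x i) := by
    unfold Cc; rw [Finset.sum_mul]
  have hsum := Finset.sum_le_sum key
  rw [Finset.sum_sub_distrib, e1, e2] at hsum
  show _ ≤ ∑ r ∈ N.R, N.k r * mono x r.1 * rvec r i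
  linarith

theorem field_le (N : Net d) (hN : N.LineWR) {c : ℝ} (hc0 : 0 < c)
    (hc : ∀ r ∈ N.R, c ≤ N.k r) {x : Fin d → ℝ} (hx : ∀ j, 0 < x j) {i : Fin d}
    (hxi : 1 ≤ x i) : N.field x i ≤ -((c - Cc N i / x i) * dnS N x i) := by
  have hS : 0 ≤ dnS N x i := Finset.sum_nonneg (fun r _ => (mono_pos hx _).le)
  have key : ∀ r ∈ N.R, N.k r * mono x r.1 * rvec r i ≤
      (if r.2 i < r.1 i then -(c * mono x r.1) else 0)
        + N.k r * |rvec r i| * (dnS N x i / x i) := by
    intro r hr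
    have hk : c ≤ N.k r := hc r hr
    have hm : 0 < mono x r.1 := mono_pos hx _
    have hk0 : 0 ≤ N.k r * |rvec r i| := mul_nonneg (hc0.le.trans hk) (abs_nonneg _)
    have hU : 0 ≤ dnS N x i / x i := div_nonneg hS (hx i).le
    rcases lt_trichotomy (r.1 i) (r.2 i) with h | h | h
    · rw [if_neg (by omega)]
      obtain ⟨q, hq, hqdn, hqoth, hqi⟩ := combB hN hr h
      have h1 : x i * mono x r.1 ≤ mono x q.1 := mono_le_high hx hxi hqoth hqi
      have h2 : mono x q.1 ≤ dnS N x i := by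
        have hmem : q ∈ N.R.filter (fun r => r.2 i < r.1 i) := Finset.mem_filter.2 ⟨hq, hqdn⟩
        unfold dnS
        exact Finset.single_le_sum (f := fun r => mono x r.1)
          (fun r _ => (mono_pos hx _).le) hmem
      have hpos : 0 < rvec r i := by
        unfold rvec
        have : (r.1 i : ℝ) < (r.2 i : ℝ) := by exact_mod_cast h
        linarith
      have h4 : mono x r.1 ≤ dnS N x i / x i := by
        rw [le_div_iff₀ (hx i)]
        linarith
      have e : N.k r * mono x r.1 * rvec r i = N.k r * |rvec r i| * mono x r.1 := by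
        rw [abs_of_pos hpos]; ring
      rw [e]
      have := mul_le_mul_of_nonneg_left h4 hk0
      linarith
    · rw [if_neg (by omega)]
      have h0 : rvec r i = 0 := by unfold rvec; rw [h]; ring
      rw [h0]; simp
    · rw [if_pos h]
      have h1 : rvec r i ≤ -1 := by
        unfold rvec
        have : (r.2 i : ℝ) + 1 ≤ (r.1 i : ℝ) := by exact_mod_cast h
        linarith
      have h2 : 0 ≤ N.k r * |rvec r i| * (dnS N x i / x i) := mul_nonneg hk0 hU
      have h3 : c * mono x r.1 ≤ N.k r * mono x r.1 := mul_le_mul_of_nonneg_right hk hm.le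
      have h4 : N.k r * mono x r.1 * rvec r i ≤ N.k r * mono x r.1 * (-1) :=
        mul_le_mul_of_nonneg_left h1 (mul_nonneg (hc0.le.trans hk) hm.le)
      linarith
  have e1 : ∑ r ∈ N.R, (if r.2 i < r.1 i then -(c * mono x r.1) else 0)
      = -(c * dnS N x i) := by
    unfold dnS; rw [Finset.mul_sum, ← Finset.sum_neg_distrib, Finset.sum_filter]
  have e2 : ∑ r ∈ N.R, N.k r * |rvec r i| * (dnS N x i / x i)
      = Cc N i * (dnS N x i / x i) := by
    unfold Cc; rw [Finset.sum_mul]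
  have hsum := Finset.sum_le_sum key
  rw [Finset.sum_add_distrib, e1, e2] at hsum
  have e3 : Cc N i * (dnS N x i / x i) = Cc N i / x i * dnS N x i := by ring
  show ∑ r ∈ N.R, N.k r * mono x r.1 * rvec r i ≤ _
  linarith

theorem field_inactive (N : Net d) {i : Fin d} (hi : ¬ N.Active i) (x : Fin d → ℝ) :
    N.field x i = 0 := by
  show ∑ r ∈ N.R, N.k r * mono x r.1 * rvec r i = 0
  apply Finset.sum_eq_zero
  intro r hr
  have : r.1 i = r.2 i := by
    by_contra h
    exact hi ⟨r, hr, h⟩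
  unfold rvec
  rw [this]; ring

/-- Lower threshold for species `i`. -/
noncomputable def lo (N : Net d) (c : ℝ) (i : Fin d) : ℝ := min 1 (c / (2 * (Cc N i + 1)))

/-- Upper threshold for species `i`. -/
noncomputable def hi (N : Net d) (c : ℝ) (i : Fin d) : ℝ := max 1 (2 * (Cc N i + 1) / c)

theorem Cc_nonneg (N : Net d) {c : ℝ} (hc0 : 0 < c) (hc : ∀ r ∈ N.R, c ≤ N.k r) (i : Fin d) :
    0 ≤ Cc N i :=
  Finset.sum_nonneg (fun r hr => mul_nonneg (hc0.le.trans (hc r hr)) (abs_nonneg _))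

theorem lo_pos (N : Net d) {c : ℝ} (hc0 : 0 < c) (hc : ∀ r ∈ N.R, c ≤ N.k r) (i : Fin d) :
    0 < lo N c i := by
  have := Cc_nonneg N hc0 hc i
  unfold lo
  apply lt_min one_pos
  positivity

theorem lo_le_one (N : Net d) (c : ℝ) (i : Fin d) : lo N c i ≤ 1 := min_le_left _ _

theorem one_le_hi (N : Net d) (c : ℝ) (i : Fin d) : 1 ≤ hi N c i := le_max_left _ _

theorem barrier_low {N : Net d} (hN : N.LineWR) {c : ℝ} (hc0 : 0 < c)
    (hc : ∀ r ∈ N.R, c ≤ N.k r) {i : Fin d} (hact : N.Active i) {a : Fin d → ℝ}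
    (ha : ∀ j, 0 < a j) :
    ∃ σ : ℝ, 0 < σ ∧ ∀ x : Fin d → ℝ, (∀ j, a j ≤ x j) → x i ≤ lo N c i →
      σ ≤ N.field x i := by
  have hC := Cc_nonneg N hc0 hc i
  obtain ⟨q, hq, hqup⟩ : ∃ q ∈ N.R, q.1 i < q.2 i := by
    obtain ⟨r, hr, hne⟩ := hact
    rcases lt_or_gt_of_ne hne with h | h
    · exact ⟨r, hr, h⟩
    · obtain ⟨q, hq, hq1, _, _⟩ := combA hN hr h
      exact ⟨q, hq, hq1⟩
  refine ⟨c / 2 * mono a q.1, mul_pos (by positivity) (mono_pos ha _), ?_⟩
  intro x hax hxi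
  have hx : ∀ j, 0 < x j := fun j => lt_of_lt_of_le (ha j) (hax j)
  have h1 := field_ge N hN hc0 hc hx (hxi.trans (lo_le_one N c i))
  have h2 : mono x q.1 ≤ upS N x i := by
    have hmem : q ∈ N.R.filter (fun r => r.1 i < r.2 i) := Finset.mem_filter.2 ⟨hq, hqup⟩
    unfold upS
    exact Finset.single_le_sum (f := fun r => mono x r.1)
      (fun r _ => (mono_pos hx _).le) hmem
  have h3 : mono a q.1 ≤ mono x q.1 := mono_mono ha hax _
  have h4 : Cc N i * x i ≤ c / 2 := by
    have hx' : x i ≤ c / (2 * (Cc N i + 1)) := hxi.trans (min_le_right _ _)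
    have h5 : Cc N i * x i ≤ Cc N i * (c / (2 * (Cc N i + 1))) :=
      mul_le_mul_of_nonneg_left hx' hC
    have h6 : Cc N i * (c / (2 * (Cc N i + 1))) ≤ c / 2 := by
      rw [← mul_div_assoc, div_le_iff₀ (by positivity)]
      nlinarith
    linarith
  have h7 : c / 2 * mono a q.1 ≤ (c - Cc N i * x i) * upS N x i := by
    have hm : 0 ≤ mono a q.1 := (mono_pos ha _).le
    have hU : mono a q.1 ≤ upS N x i := h3.trans h2
    have h8 : c / 2 * mono a q.1 ≤ (c - Cc N i * x i) * mono a q.1 :=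
      mul_le_mul_of_nonneg_right (by linarith) hm
    have h9 : (c - Cc N i * x i) * mono a q.1 ≤ (c - Cc N i * x i) * upS N x i :=
      mul_le_mul_of_nonneg_left hU (by linarith)
    linarith
  linarith

theorem barrier_high {N : Net d} (hN : N.LineWR) {c : ℝ} (hc0 : 0 < c)
    (hc : ∀ r ∈ N.R, c ≤ N.k r) {i : Fin d} (hact : N.Active i) {a : Fin d → ℝ}
    (ha : ∀ j, 0 < a j) :
    ∃ σ : ℝ, 0 < σ ∧ ∀ x : Fin d → ℝ, (∀ j, a j ≤ x j) → hi N c i ≤ x i →
      N.field x i ≤ -σ := by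
  have hC := Cc_nonneg N hc0 hc i
  obtain ⟨q, hq, hqdn⟩ : ∃ q ∈ N.R, q.2 i < q.1 i := by
    obtain ⟨r, hr, hne⟩ := hact
    rcases lt_or_gt_of_ne hne with h | h
    · obtain ⟨q, hq, hq1, _, _⟩ := combB hN hr h
      exact ⟨q, hq, hq1⟩
    · exact ⟨r, hr, h⟩
  refine ⟨c / 2 * mono a q.1, mul_pos (by positivity) (mono_pos ha _), ?_⟩
  intro x hax hxi
  have hx : ∀ j, 0 < x j := fun j => lt_of_lt_of_le (ha j) (hax j)
  have h1 := field_le N hN hc0 hc hx ((one_le_hi N c i).trans hxi)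
  have h2 : mono x q.1 ≤ dnS N x i := by
    have hmem : q ∈ N.R.filter (fun r => r.2 i < r.1 i) := Finset.mem_filter.2 ⟨hq, hqdn⟩
    unfold dnS
    exact Finset.single_le_sum (f := fun r => mono x r.1)
      (fun r _ => (mono_pos hx _).le) hmem
  have h3 : mono a q.1 ≤ mono x q.1 := mono_mono ha hax _
  have h4 : Cc N i / x i ≤ c / 2 := by
    have hx' : 2 * (Cc N i + 1) / c ≤ x i := (le_max_right _ _).trans hxi
    rw [div_le_iff₀ (hx i)]
    have h5 : c / 2 * (2 * (Cc N i + 1) / c) ≤ c / 2 * x i :=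
      mul_le_mul_of_nonneg_left hx' (by positivity)
    have h6 : c / 2 * (2 * (Cc N i + 1) / c) = Cc N i + 1 := by
      field_simp
    linarith
  have h7 : c / 2 * mono a q.1 ≤ (c - Cc N i / x i) * dnS N x i := by
    have hm : 0 ≤ mono a q.1 := (mono_pos ha _).le
    have hU : mono a q.1 ≤ dnS N x i := h3.trans h2
    have h8 : c / 2 * mono a q.1 ≤ (c - Cc N i / x i) * mono a q.1 :=
      mul_le_mul_of_nonneg_right (by linarith) hm
    have h9 : (c - Cc N i / x i) * mono a q.1 ≤ (c - Cc N i / x i) * dnS N x i :=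
      mul_le_mul_of_nonneg_left hU (by linarith)
    linarith
  linarith

end Vale.Agent.Lib.P072
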