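import Mathlib

/-!
Mass-action systems of finite reaction networks, weak reversibility, positive stoichiometric
classes and permanence, together with the class of networks treated in the hand-in.
-/

namespace Vale.Agent.Lib.P072

/-- A finite reaction network on `d` species with rate constants: `R` is the finite set of
reactions `(y, y')` (read `y → y'`) between complexes in `ℕ^d`, and `k` gives the rate
constant of each reaction. -/
structure Net (d : ℕ) where
  /-- the reactions `(y, y')` -/
  R : Finset ((Fin d → ℕ) × (Fin d → ℕ))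
  /-- the rate constants -/
  k : (Fin d → ℕ) × (Fin d → ℕ) → ℝ

variable {d : ℕ}

/-- Every reaction joins two distinct complexes and has a positive rate constant. -/
def Net.Valid (N : Net d) : Prop := ∀ r ∈ N.R, r.1 ≠ r.2 ∧ 0 < N.k r

/-- The monomial `x^y = ∏ j, x_j ^ y_j`. -/
def mono (x : Fin d → ℝ) (y : Fin d → ℕ) : ℝ := ∏ j, x j ^ y j

/-- The reaction vector `y' - y` of a reaction `(y, y')`, as a real vector. -/
def rvec (r : (Fin d → ℕ) × (Fin d → ℕ)) : Fin d → ℝ := fun i => (r.2 i : ℝ) - (r.1 i : ℝ)

/-- The mass-action vector field `f(x) = ∑_{y → y'} k_{y → y'} x^y (y' - y)`. -/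
noncomputable def Net.field (N : Net d) (x : Fin d → ℝ) : Fin d → ℝ :=
  fun i => ∑ r ∈ N.R, N.k r * mono x r.1 * rvec r i

/-- Weak reversibility: for every reaction `y → y'` there is a directed path of reactions
from `y'` back to `y`. -/
def Net.WeaklyReversible (N : Net d) : Prop :=
  ∀ r ∈ N.R, Relation.ReflTransGen (fun a b => (a, b) ∈ N.R) r.2 r.1

/-- `a → b` is a reaction of the network that changes the amount of species `i` only. -/
def Net.lineStep (N : Net d) (i : Fin d) (a b : Fin d → ℕ) : Prop :=
  (a, b) ∈ N.R ∧ ∀ j, j ≠ i → b j = a j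

/-- The class of networks treated: every reaction `y → y'` changes the amount of a single
species `i`, and there is a directed path from `y'` back to `y` made of reactions that
change only the amount of that same species `i`. -/
def Net.LineWR (N : Net d) : Prop :=
  ∀ r ∈ N.R, ∃ i, (∀ j, j ≠ i → r.2 j = r.1 j) ∧
    Relation.ReflTransGen (N.lineStep i) r.2 r.1

/-- The stoichiometric subspace `S = span {y' - y : y → y' a reaction}`. -/
def Net.stoich (N : Net d) : Submodule ℝ (Fin d → ℝ) :=
  Submodule.span ℝ (rvec '' (N.R : Set ((Fin d → ℕ) × (Fin d → ℕ))))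

/-- The positive stoichiometric class `(c + S) ∩ ℝ^d_{>0}` of `c`. -/
def Net.posClass (N : Net d) (c : Fin d → ℝ) : Set (Fin d → ℝ) :=
  {x | (∀ i, 0 < x i) ∧ x - c ∈ N.stoich}

/-- `x` solves the mass-action system `ẋ = f(x)` on the time interval `[0, T)`
(derivative at every `t` in `(0, T)`, right derivative at `t = 0`). -/
def Net.IsSolOn (N : Net d) (x : ℝ → Fin d → ℝ) (T : ℝ) : Prop :=
  ∀ t, 0 ≤ t → t < T → HasDerivWithinAt x (N.field (x t)) (Set.Ici 0) t

/-- `x` solves the mass-action system `ẋ = f(x)` on `[0, ∞)`. -/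
def Net.IsSol (N : Net d) (x : ℝ → Fin d → ℝ) : Prop :=
  ∀ t, 0 ≤ t → HasDerivWithinAt x (N.field (x t)) (Set.Ici 0) t

/-- Permanence on the positive stoichiometric class of `c`:
(1) through every point `x₀` of the class there is a solution on `[0, ∞)` which stays in the
class (in particular it is positive), and every solution on an interval `[0, T)` starting at
`x₀` coincides with it there (so every solution exists and is positive for all `t ≥ 0`);
(2) there is a compact subset `K` of the class such that every solution on `[0, ∞)` starting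
in the class lies in `K` for all sufficiently large times. -/
def Net.PermanentOn (N : Net d) (c : Fin d → ℝ) : Prop :=
  (∀ x₀ ∈ N.posClass c, ∃ x : ℝ → Fin d → ℝ,
      x 0 = x₀ ∧ N.IsSol x ∧ (∀ t, 0 ≤ t → x t ∈ N.posClass c) ∧
      ∀ (T : ℝ) (z : ℝ → Fin d → ℝ), N.IsSolOn z T → z 0 = x₀ →
        ∀ t, 0 ≤ t → t < T → z t = x t) ∧
  ∃ K : Set (Fin d → ℝ), IsCompact K ∧ K ⊆ N.posClass c ∧
    ∀ x : ℝ → Fin d → ℝ, N.IsSol x → x 0 ∈ N.posClass c →
      ∃ T : ℝ, ∀ t, T ≤ t → x t ∈ K

end Vale.Agent.Lib.P072
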