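import Vale.Agent.Lib.P072.Barrier

/-!
A priori bounds and absorption for positive solutions of the mass-action system of a
network of the class `LineWR`.
-/

namespace Vale.Agent.Lib.P072

open Set
open scoped Classical

variable {d : ℕ}

theorem fence_low {u u' : ℝ → ℝ} {s T a : ℝ}
    (hcont : ContinuousOn u (Icc s T))
    (hder : ∀ t ∈ Ico s T, HasDerivWithinAt u (u' t) (Ici t) t)
    (h0 : a ≤ u s) (hb : ∀ t ∈ Ico s T, u t = a → 0 < u' t) :
    ∀ t ∈ Icc s T, a ≤ u t := by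
  have key := image_le_of_deriv_right_lt_deriv_boundary' (f := fun t => -u t)
    (f' := fun t => -u' t) (a := s) (b := T) (B := fun _ => -a) (B' := fun _ => 0)
    hcont.neg (fun t ht => (hder t ht).neg) (by simpa using h0) continuousOn_const
    (fun t _ => hasDerivWithinAt_const _ _ _)
    (fun t ht h => by
      have h1 : u t = a := by simpa using h
      have := hb t ht h1
      simpa using this)
  intro t ht
  have := key ht
  simpa using this

theorem fence_high {u u' : ℝ → ℝ} {s T b : ℝ}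
    (hcont : ContinuousOn u (Icc s T))
    (hder : ∀ t ∈ Ico s T, HasDerivWithinAt u (u' t) (Ici t) t)
    (h0 : u s ≤ b) (hb : ∀ t ∈ Ico s T, u t = b → u' t < 0) :
    ∀ t ∈ Icc s T, u t ≤ b := by
  have key := image_le_of_deriv_right_lt_deriv_boundary' (f := u)
    (f' := u') (a := s) (b := T) (B := fun _ => b) (B' := fun _ => 0)
    hcont hder h0 continuousOn_const
    (fun t _ => hasDerivWithinAt_const _ _ _)
    (fun t ht h => hb t ht h)
  intro t ht
  exact key ht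

theorem growth_low {u u' : ℝ → ℝ} {s T σ : ℝ} (hsT : s ≤ T)
    (hcont : ContinuousOn u (Icc s T))
    (hder : ∀ t ∈ Ico s T, HasDerivWithinAt u (u' t) (Ici t) t)
    (hb : ∀ t ∈ Ico s T, σ ≤ u' t) : u s + σ * (T - s) ≤ u T := by
  have key := image_le_of_deriv_right_le_deriv_boundary (f := fun t => u s + σ * (t - s))
    (f' := fun _ => σ) (a := s) (b := T) (B := u) (B' := u')
    (by fun_prop)
    (fun t _ => by
      have h1 : HasDerivAt (fun t : ℝ => u s + σ * (t - s)) (0 + σ * (1 - 0)) t :=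
        (hasDerivAt_const t (u s)).add (((hasDerivAt_id t).sub (hasDerivAt_const t s)).const_mul σ)
      simpa using h1.hasDerivWithinAt)
    (by simp) hcont hder hb
  exact key (right_mem_Icc.2 hsT)

theorem growth_high {u u' : ℝ → ℝ} {s T σ : ℝ} (hsT : s ≤ T)
    (hcont : ContinuousOn u (Icc s T))
    (hder : ∀ t ∈ Ico s T, HasDerivWithinAt u (u' t) (Ici t) t)
    (hb : ∀ t ∈ Ico s T, u' t ≤ -σ) : u T ≤ u s - σ * (T - s) := by
  have key := image_le_of_deriv_right_le_deriv_boundary (f := u)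
    (f' := u') (a := s) (b := T) (B := fun t => u s - σ * (t - s)) (B' := fun _ => -σ)
    hcont hder (by simp) (by fun_prop)
    (fun t _ => by
      have h1 : HasDerivAt (fun t : ℝ => u s - σ * (t - s)) (0 - σ * (1 - 0)) t :=
        (hasDerivAt_const t (u s)).sub (((hasDerivAt_id t).sub (hasDerivAt_const t s)).const_mul σ)
      simpa using h1.hasDerivWithinAt)
    hb
  exact key (right_mem_Icc.2 hsT)

/-- Lower corner of the invariant box attached to the initial point `x₀`. -/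
noncomputable def boxLo (N : Net d) (c : ℝ) (x₀ : Fin d → ℝ) (i : Fin d) : ℝ :=
  if N.Active i then min (x₀ i) (lo N c i) else x₀ i

/-- Upper corner of the invariant box attached to the initial point `x₀`. -/
noncomputable def boxHi (N : Net d) (c : ℝ) (x₀ : Fin d → ℝ) (i : Fin d) : ℝ :=
  if N.Active i then max (x₀ i) (hi N c i) else x₀ i

theorem boxLo_pos (N : Net d) {c : ℝ} (hc0 : 0 < c) (hc : ∀ r ∈ N.R, c ≤ N.k r)
    {x₀ : Fin d → ℝ} (hx₀ : ∀ j, 0 < x₀ j) (i : Fin d) : 0 < boxLo N c x₀ i := by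
  unfold boxLo
  split_ifs
  · exact lt_min (hx₀ i) (lo_pos N hc0 hc i)
  · exact hx₀ i

theorem boxLo_le (N : Net d) (c : ℝ) (x₀ : Fin d → ℝ) (i : Fin d) : boxLo N c x₀ i ≤ x₀ i := by
  unfold boxLo
  split_ifs
  · exact min_le_left _ _
  · exact le_rfl

theorem le_boxHi (N : Net d) (c : ℝ) (x₀ : Fin d → ℝ) (i : Fin d) : x₀ i ≤ boxHi N c x₀ i := by
  unfold boxHi
  split_ifs
  · exact le_max_left _ _
  · exact le_rfl

theorem apriori {N : Net d} (hN : N.LineWR) {c : ℝ} (hc0 : 0 < c)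
    (hc : ∀ r ∈ N.R, c ≤ N.k r) {z w : ℝ → Fin d → ℝ} {T : ℝ} (x₀ : Fin d → ℝ)
    (hz0 : z 0 = x₀)
    (hcont : ContinuousOn z (Icc 0 T))
    (hder : ∀ t ∈ Ico 0 T, HasDerivWithinAt z (N.field (w t)) (Ici t) t)
    (hwpos : ∀ t ∈ Ico 0 T, ∀ j, 0 < w t j)
    (hwlo : ∀ t ∈ Ico 0 T, ∀ i, z t i = boxLo N c x₀ i → w t i = boxLo N c x₀ i)
    (hwhi : ∀ t ∈ Ico 0 T, ∀ i, z t i = boxHi N c x₀ i → w t i = boxHi N c x₀ i) :
    ∀ t ∈ Icc 0 T, ∀ i, boxLo N c x₀ i ≤ z t i ∧ z t i ≤ boxHi N c x₀ i := by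
  intro t ht i
  have hci : ContinuousOn (fun t => z t i) (Icc 0 T) :=
    (continuous_apply i).comp_continuousOn hcont
  have hdi : ∀ t ∈ Ico 0 T, HasDerivWithinAt (fun t => z t i) (N.field (w t) i) (Ici t) t :=
    fun t ht => hasDerivWithinAt_pi.1 (hder t ht) i
  by_cases hact : N.Active i
  · constructor
    · refine fence_low hci hdi ?_ ?_ t ht
      · show boxLo N c x₀ i ≤ z 0 i
        rw [hz0]; exact boxLo_le N c x₀ i
      · intro s hs hzs
        have h1 : w s i = boxLo N c x₀ i := hwlo s hs i hzs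
        have h2 : w s i ≤ lo N c i := by
          rw [h1]; unfold boxLo; rw [if_pos hact]; exact min_le_right _ _
        obtain ⟨σ, hσ, hσ'⟩ := barrier_low hN hc0 hc hact (a := w s) (hwpos s hs)
        exact lt_of_lt_of_le hσ (hσ' (w s) (fun j => le_rfl) h2)
    · refine fence_high hci hdi ?_ ?_ t ht
      · show z 0 i ≤ boxHi N c x₀ i
        rw [hz0]; exact le_boxHi N c x₀ i
      · intro s hs hzs
        have h1 : w s i = boxHi N c x₀ i := hwhi s hs i hzs
        have h2 : hi N c i ≤ w s i := by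
          rw [h1]; unfold boxHi; rw [if_pos hact]; exact le_max_right _ _
        obtain ⟨σ, hσ, hσ'⟩ := barrier_high hN hc0 hc hact (a := w s) (hwpos s hs)
        have := hσ' (w s) (fun j => le_rfl) h2
        linarith
  · have hconst := constant_of_has_deriv_right_zero hci
      (fun s hs => by
        have := hdi s hs
        rwa [field_inactive N hact] at this) t ht
    have h1 : z t i = x₀ i := by
      have : z t i = z 0 i := hconst
      rw [this, hz0]
    have h2 : boxLo N c x₀ i = x₀ i := by unfold boxLo; rw [if_neg hact]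
    have h3 : boxHi N c x₀ i = x₀ i := by unfold boxHi; rw [if_neg hact]
    rw [h1, h2, h3]
    exact ⟨le_rfl, le_rfl⟩

theorem Net.IsSol.contOn {N : Net d} {z : ℝ → Fin d → ℝ} (hz : N.IsSol z) {s T : ℝ} (hs : 0 ≤ s) :
    ContinuousOn z (Icc s T) := by
  intro t ht
  have h0 : 0 ≤ t := hs.trans ht.1
  exact (hz t h0).continuousWithinAt.mono (fun τ hτ => hs.trans hτ.1)

theorem Net.IsSol.derIci {N : Net d} {z : ℝ → Fin d → ℝ} (hz : N.IsSol z) {t : ℝ} (ht : 0 ≤ t) :
    HasDerivWithinAt z (N.field (z t)) (Ici t) t :=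
  (hz t ht).mono (fun _ hτ => ht.trans hτ)

theorem Net.IsSol.box {N : Net d} (hN : N.LineWR) {c : ℝ} (hc0 : 0 < c)
    (hc : ∀ r ∈ N.R, c ≤ N.k r) {z : ℝ → Fin d → ℝ} (hz : N.IsSol z)
    (hpos : ∀ t, 0 ≤ t → ∀ i, 0 < z t i) :
    ∀ t, 0 ≤ t → ∀ i, boxLo N c (z 0) i ≤ z t i ∧ z t i ≤ boxHi N c (z 0) i := by
  intro t ht i
  exact apriori hN hc0 hc (z := z) (w := z) (T := t) (z 0) rfl (hz.contOn le_rfl)
    (fun s hs => hz.derIci hs.1) (fun s hs => hpos s hs.1) (fun _ _ _ h => h)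
    (fun _ _ _ h => h) t ⟨ht, le_rfl⟩ i

theorem absorb_one {N : Net d} (hN : N.LineWR) {c : ℝ} (hc0 : 0 < c)
    (hc : ∀ r ∈ N.R, c ≤ N.k r) {z : ℝ → Fin d → ℝ} (hz : N.IsSol z)
    (hpos : ∀ t, 0 ≤ t → ∀ i, 0 < z t i) (i : Fin d) (hact : N.Active i) :
    ∃ T : ℝ, ∀ t, T ≤ t → lo N c i ≤ z t i ∧ z t i ≤ hi N c i := by
  have hbox := hz.box hN hc0 hc hpos
  have hapos : ∀ j, 0 < boxLo N c (z 0) j := boxLo_pos N hc0 hc (hpos 0 le_rfl)
  have hci : ∀ s T : ℝ, 0 ≤ s → ContinuousOn (fun t => z t i) (Icc s T) :=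
    fun s T hs => (continuous_apply i).comp_continuousOn (hz.contOn hs)
  have hdi : ∀ t, 0 ≤ t → HasDerivWithinAt (fun t => z t i) (N.field (z t) i) (Ici t) t :=
    fun t ht => hasDerivWithinAt_pi.1 (hz.derIci ht) i
  -- lower part
  have hlow : ∃ t₁ : ℝ, 0 ≤ t₁ ∧ ∀ t, t₁ ≤ t → lo N c i ≤ z t i := by
    have hA : ∃ t₁ : ℝ, 0 ≤ t₁ ∧ lo N c i ≤ z t₁ i := by
      by_contra hcon
      push Not at hcon
      obtain ⟨σ, hσ, hσ'⟩ := barrier_low hN hc0 hc hact hapos
      set T : ℝ := (lo N c i - z 0 i) / σ + 1 with hT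
      have h0 : z 0 i < lo N c i := hcon 0 le_rfl
      have hTpos : 0 ≤ T := by
        have : 0 ≤ (lo N c i - z 0 i) / σ := div_nonneg (by linarith) hσ.le
        linarith
      have hg := growth_low (u := fun t => z t i) (u' := fun t => N.field (z t) i)
        (s := 0) (T := T) (σ := σ) hTpos (hci 0 T le_rfl) (fun t ht => hdi t ht.1)
        (fun t ht => hσ' (z t) (fun j => (hbox t ht.1 j).1) (hcon t ht.1).le)
      have h1 : σ * (T - 0) = lo N c i - z 0 i + σ := by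
        rw [hT]; field_simp; ring
      have h2 := hcon T hTpos
      linarith
    obtain ⟨t₁, ht₁, hlo⟩ := hA
    refine ⟨t₁, ht₁, fun t ht => ?_⟩
    refine fence_low (u := fun t => z t i) (u' := fun t => N.field (z t) i) (hci t₁ t ht₁)
      (fun s hs => hdi s (ht₁.trans hs.1)) hlo ?_ t ⟨ht, le_rfl⟩
    intro s hs hzs
    have hs0 : 0 ≤ s := ht₁.trans hs.1
    obtain ⟨σ, hσ, hσ'⟩ := barrier_low hN hc0 hc hact (a := z s) (hpos s hs0)
    exact lt_of_lt_of_le hσ (hσ' (z s) (fun j => le_rfl) (le_of_eq hzs))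
  have hhigh : ∃ t₂ : ℝ, 0 ≤ t₂ ∧ ∀ t, t₂ ≤ t → z t i ≤ hi N c i := by
    have hA : ∃ t₂ : ℝ, 0 ≤ t₂ ∧ z t₂ i ≤ hi N c i := by
      by_contra hcon
      push Not at hcon
      obtain ⟨σ, hσ, hσ'⟩ := barrier_high hN hc0 hc hact hapos
      set T : ℝ := (z 0 i - hi N c i) / σ + 1 with hT
      have h0 : hi N c i < z 0 i := hcon 0 le_rfl
      have hTpos : 0 ≤ T := by
        have : 0 ≤ (z 0 i - hi N c i) / σ := div_nonneg (by linarith) hσ.le
        linarith
      have hg := growth_high (u := fun t => z t i) (u' := fun t => N.field (z t) i)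
        (s := 0) (T := T) (σ := σ) hTpos (hci 0 T le_rfl) (fun t ht => hdi t ht.1)
        (fun t ht => hσ' (z t) (fun j => (hbox t ht.1 j).1) (hcon t ht.1).le)
      have h1 : σ * (T - 0) = z 0 i - hi N c i + σ := by
        rw [hT]; field_simp; ring
      have h2 := hcon T hTpos
      linarith
    obtain ⟨t₂, ht₂, hhi⟩ := hA
    refine ⟨t₂, ht₂, fun t ht => ?_⟩
    refine fence_high (u := fun t => z t i) (u' := fun t => N.field (z t) i) (hci t₂ t ht₂)
      (fun s hs => hdi s (ht₂.trans hs.1)) hhi ?_ t ⟨ht, le_rfl⟩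
    intro s hs hzs
    have hs0 : 0 ≤ s := ht₂.trans hs.1
    obtain ⟨σ, hσ, hσ'⟩ := barrier_high hN hc0 hc hact (a := z s) (hpos s hs0)
    have := hσ' (z s) (fun j => le_rfl) (le_of_eq hzs.symm)
    linarith
  obtain ⟨t₁, _, h1⟩ := hlow
  obtain ⟨t₂, _, h2⟩ := hhigh
  exact ⟨max t₁ t₂, fun t ht =>
    ⟨h1 t ((le_max_left _ _).trans ht), h2 t ((le_max_right _ _).trans ht)⟩⟩

theorem absorb {N : Net d} (hN : N.LineWR) {c : ℝ} (hc0 : 0 < c)
    (hc : ∀ r ∈ N.R, c ≤ N.k r) {z : ℝ → Fin d → ℝ} (hz : N.IsSol z)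
    (hpos : ∀ t, 0 ≤ t → ∀ i, 0 < z t i) :
    ∃ T : ℝ, 0 ≤ T ∧ ∀ t, T ≤ t → ∀ i, N.Active i → lo N c i ≤ z t i ∧ z t i ≤ hi N c i := by
  have h : ∀ i, ∃ T : ℝ, N.Active i → ∀ t, T ≤ t → lo N c i ≤ z t i ∧ z t i ≤ hi N c i := by
    intro i
    by_cases hact : N.Active i
    · obtain ⟨T, hT⟩ := absorb_one hN hc0 hc hz hpos i hact
      exact ⟨T, fun _ => hT⟩
    · exact ⟨0, fun h => absurd h hact⟩
  choose Tf hTf using h
  refine ⟨∑ i, |Tf i|, Finset.sum_nonneg (fun i _ => abs_nonneg _), fun t ht i hact => ?_⟩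
  refine hTf i hact t (le_trans ?_ ht)
  exact (le_abs_self _).trans
    (Finset.single_le_sum (f := fun i => |Tf i|) (fun i _ => abs_nonneg _) (Finset.mem_univ i))

end Vale.Agent.Lib.P072
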