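import Vale.Agent.Lib.P072.Dynamics

/-!
Global existence and uniqueness of positive solutions for networks of the class `LineWR`,
through the Picard-Lindelof theorem applied to the field composed with the clamp onto the
invariant box.
-/

namespace Vale.Agent.Lib.P072

open Set Metric
open scoped Classical NNReal

variable {d : ℕ}

/-- Coordinatewise clamp onto the box with corners `a` and `b`. -/
noncomputable def clamp (a b x : Fin d → ℝ) : Fin d → ℝ :=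
  fun i => max (a i) (min (b i) (x i))

theorem clamp_lip (a b : Fin d → ℝ) : LipschitzWith 1 (clamp a b) := by
  apply LipschitzWith.of_dist_le_mul
  intro x y
  rw [NNReal.coe_one, one_mul]
  apply (dist_pi_le_iff dist_nonneg).2
  intro i
  calc dist (clamp a b x i) (clamp a b y i) ≤ dist (x i) (y i) := by
        unfold clamp
        rw [Real.dist_eq, Real.dist_eq]
        have h1 := abs_max_sub_max_le_max (a i) (min (b i) (x i)) (a i) (min (b i) (y i))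
        have h2 := abs_min_sub_min_le_max (b i) (x i) (b i) (y i)
        simp only [sub_self, abs_zero] at h1 h2
        have h3 : max 0 |min (b i) (x i) - min (b i) (y i)|
            = |min (b i) (x i) - min (b i) (y i)| := max_eq_right (abs_nonneg _)
        have h4 : max 0 |x i - y i| = |x i - y i| := max_eq_right (abs_nonneg _)
        rw [h3] at h1
        rw [h4] at h2
        exact h1.trans h2
    _ ≤ dist x y := dist_le_pi_dist x y i

theorem clamp_mem {a b : Fin d → ℝ} (hab : ∀ i, a i ≤ b i) (x : Fin d → ℝ) :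
    clamp a b x ∈ Set.pi Set.univ (fun i => Icc (a i) (b i)) := by
  intro i _
  exact ⟨le_max_left _ _, max_le (hab i) (min_le_left _ _)⟩

theorem clamp_eq {a b x : Fin d → ℝ} (hx : ∀ i, a i ≤ x i ∧ x i ≤ b i) : clamp a b x = x := by
  funext i
  unfold clamp
  rw [min_eq_right (hx i).2, max_eq_right (hx i).1]

theorem contDiff_field (N : Net d) : ContDiff ℝ 1 N.field := by
  unfold Net.field mono
  apply contDiff_pi.2
  intro i
  apply ContDiff.sum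
  intro r _
  apply ContDiff.mul
  · apply ContDiff.mul contDiff_const
    apply contDiff_prod
    intro j _
    exact (contDiff_apply ℝ ℝ j).pow _
  · exact contDiff_const

/-- The field composed with the clamp is globally Lipschitz and bounded. -/
theorem clamped_field_props (N : Net d) {a b : Fin d → ℝ} (hab : ∀ i, a i ≤ b i) :
    ∃ (K : ℝ≥0) (L : ℝ≥0), LipschitzWith K (fun x => N.field (clamp a b x)) ∧
      ∀ x, ‖N.field (clamp a b x)‖ ≤ L := by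
  have hcomp : IsCompact (Set.pi Set.univ (fun i => Icc (a i) (b i))) :=
    isCompact_univ_pi (fun i => isCompact_Icc)
  obtain ⟨K, hK⟩ := LocallyLipschitzOn.exists_lipschitzOnWith_of_compact hcomp
    ((contDiff_field N).locallyLipschitz.locallyLipschitzOn)
  obtain ⟨L, hL⟩ := hcomp.exists_bound_of_continuousOn (contDiff_field N).continuous.continuousOn
  refine ⟨K, ⟨max L 0, le_max_right _ _⟩, ?_, ?_⟩
  · apply LipschitzWith.of_dist_le_mul
    intro x y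
    have h1 := hK.dist_le_mul _ (clamp_mem hab x) _ (clamp_mem hab y)
    have h2 := (clamp_lip a b).dist_le_mul x y
    rw [NNReal.coe_one, one_mul] at h2
    exact h1.trans (mul_le_mul_of_nonneg_left h2 K.coe_nonneg)
  · intro x
    exact (hL _ (clamp_mem hab x)).trans (le_max_left _ _)

/-- Solutions of a globally Lipschitz, bounded autonomous field on `[0, T]`. -/
theorem exists_sol_Icc {g : (Fin d → ℝ) → (Fin d → ℝ)} {K L : ℝ≥0} (hK : LipschitzWith K g)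
    (hL : ∀ x, ‖g x‖ ≤ L) (x₀ : Fin d → ℝ) {T : ℝ} (hT : 0 ≤ T) :
    ∃ α : ℝ → Fin d → ℝ, α 0 = x₀ ∧
      ∀ t ∈ Icc (0 : ℝ) T, HasDerivWithinAt α (g (α t)) (Icc 0 T) t := by
  have hPL : IsPicardLindelof (fun _ => g) (tmin := 0) (tmax := T)
      ⟨0, left_mem_Icc.2 hT⟩ x₀ (L * ⟨T, hT⟩) 0 L K :=
    IsPicardLindelof.of_time_independent (fun x _ => hL x) hK.lipschitzOnWith (by
      simp only [sub_zero, sub_self, NNReal.coe_zero]
      rw [max_eq_left hT]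
      exact le_of_eq rfl)
  obtain ⟨α, hα0, hα⟩ := hPL.exists_eq_forall_mem_Icc_hasDerivWithinAt₀
  exact ⟨α, hα0, hα⟩

theorem sol_unique {g : (Fin d → ℝ) → (Fin d → ℝ)} {K : ℝ≥0} (hK : LipschitzWith K g)
    {α β : ℝ → Fin d → ℝ} {T : ℝ}
    (hαc : ContinuousOn α (Icc 0 T))
    (hα : ∀ t ∈ Ico (0 : ℝ) T, HasDerivWithinAt α (g (α t)) (Ici t) t)
    (hβc : ContinuousOn β (Icc 0 T))
    (hβ : ∀ t ∈ Ico (0 : ℝ) T, HasDerivWithinAt β (g (β t)) (Ici t) t)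
    (h0 : α 0 = β 0) : EqOn α β (Icc 0 T) :=
  ODE_solution_unique_of_mem_Icc_right (v := fun _ => g) (s := fun _ => Set.univ) (K := K)
    (fun _ _ => hK.lipschitzOnWith) hαc hα (fun _ _ => mem_univ _) hβc hβ
    (fun _ _ => mem_univ _) h0

theorem Icc_to_Ici {α : ℝ → Fin d → ℝ} {v : Fin d → ℝ} {T t : ℝ} (ht : t ∈ Ico (0 : ℝ) T)
    (h : HasDerivWithinAt α v (Icc 0 T) t) : HasDerivWithinAt α v (Ici t) t :=
  h.mono_of_mem_nhdsWithin (Icc_mem_nhdsGE_of_mem ht)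

theorem Icc_to_Ici0 {α : ℝ → Fin d → ℝ} {v : Fin d → ℝ} {T t : ℝ} (ht : t < T)
    (h : HasDerivWithinAt α v (Icc 0 T) t) : HasDerivWithinAt α v (Ici 0) t := by
  apply h.mono_of_mem_nhdsWithin
  rw [← Ici_inter_Iic]
  exact inter_mem_nhdsWithin _ (Iic_mem_nhds ht)

theorem exists_global {N : Net d} (hN : N.LineWR) {c : ℝ} (hc0 : 0 < c)
    (hc : ∀ r ∈ N.R, c ≤ N.k r) (x₀ : Fin d → ℝ) (hx₀ : ∀ j, 0 < x₀ j) :
    ∃ x : ℝ → Fin d → ℝ, x 0 = x₀ ∧ N.IsSol x ∧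
      (∀ t, 0 ≤ t → ∀ i, boxLo N c x₀ i ≤ x t i ∧ x t i ≤ boxHi N c x₀ i) ∧
      ∀ (T : ℝ) (z : ℝ → Fin d → ℝ), N.IsSolOn z T → z 0 = x₀ →
        ∀ t, 0 ≤ t → t < T → z t = x t := by
  have hapos : ∀ j, 0 < boxLo N c x₀ j := boxLo_pos N hc0 hc hx₀
  have hab : ∀ i, boxLo N c x₀ i ≤ boxHi N c x₀ i :=
    fun i => (boxLo_le N c x₀ i).trans (le_boxHi N c x₀ i)
  obtain ⟨K, L, hK, hL⟩ := clamped_field_props N hab
  have hex : ∀ n : ℕ, ∃ α : ℝ → Fin d → ℝ, α 0 = x₀ ∧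
      ∀ t ∈ Icc (0 : ℝ) (n + 1), HasDerivWithinAt α
        (N.field (clamp (boxLo N c x₀) (boxHi N c x₀) (α t))) (Icc 0 (n + 1)) t :=
    fun n => exists_sol_Icc hK hL x₀ (by positivity)
  choose α hα0 hα using hex
  have inbox : ∀ (β : ℝ → Fin d → ℝ) (T : ℝ), β 0 = x₀ → ContinuousOn β (Icc 0 T) →
      (∀ t ∈ Ico (0 : ℝ) T, HasDerivWithinAt β
        (N.field (clamp (boxLo N c x₀) (boxHi N c x₀) (β t))) (Ici t) t) →
      ∀ t ∈ Icc (0 : ℝ) T, ∀ i, boxLo N c x₀ i ≤ β t i ∧ β t i ≤ boxHi N c x₀ i := by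
    intro β T hβ0 hβc hβ
    refine apriori hN hc0 hc (z := β)
      (w := fun t => clamp (boxLo N c x₀) (boxHi N c x₀) (β t)) x₀ hβ0 hβc hβ ?_ ?_ ?_
    · intro t _ j
      exact lt_of_lt_of_le (hapos j) (le_max_left _ _)
    · intro t _ i h
      show max (boxLo N c x₀ i) (min (boxHi N c x₀ i) (β t i)) = boxLo N c x₀ i
      rw [h, min_eq_right (hab i), max_self]
    · intro t _ i h
      show max (boxLo N c x₀ i) (min (boxHi N c x₀ i) (β t i)) = boxHi N c x₀ i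
      rw [h, min_self, max_eq_right (hab i)]
  have hαc : ∀ n, ContinuousOn (α n) (Icc 0 ((n : ℝ) + 1)) :=
    fun n t ht => (hα n t ht).continuousWithinAt
  have hαI : ∀ n : ℕ, ∀ t ∈ Ico (0 : ℝ) ((n : ℝ) + 1), HasDerivWithinAt (α n)
      (N.field (clamp (boxLo N c x₀) (boxHi N c x₀) (α n t))) (Ici t) t :=
    fun n t ht => Icc_to_Ici ht (hα n t ⟨ht.1, ht.2.le⟩)
  have hcons : ∀ (n m : ℕ) (t : ℝ), 0 ≤ t → t ≤ n + 1 → t ≤ m + 1 → α n t = α m t := by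
    intro n m t ht hn hm
    have := sol_unique hK (α := α n) (β := α m) (T := t)
      ((hαc n).mono (Icc_subset_Icc le_rfl hn))
      (fun s hs => hαI n s ⟨hs.1, lt_of_lt_of_le hs.2 hn⟩)
      ((hαc m).mono (Icc_subset_Icc le_rfl hm))
      (fun s hs => hαI m s ⟨hs.1, lt_of_lt_of_le hs.2 hm⟩)
      ((hα0 n).trans (hα0 m).symm)
    exact this ⟨ht, le_rfl⟩
  have hceil : ∀ t : ℝ, t ≤ (⌈t⌉₊ : ℝ) + 1 := fun t => (Nat.le_ceil t).trans (by linarith)
  have hx : ∀ (n : ℕ) (t : ℝ), 0 ≤ t → t ≤ n + 1 → α ⌈t⌉₊ t = α n t :=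
    fun n t ht hn => hcons ⌈t⌉₊ n t ht (hceil t) hn
  have hxbox : ∀ t, 0 ≤ t → ∀ i, boxLo N c x₀ i ≤ α ⌈t⌉₊ t i ∧ α ⌈t⌉₊ t i ≤ boxHi N c x₀ i :=
    fun t ht i => inbox (α ⌈t⌉₊) _ (hα0 _) (hαc _) (hαI _) t ⟨ht, hceil t⟩ i
  have hxg : ∀ t, 0 ≤ t → HasDerivWithinAt (fun t => α ⌈t⌉₊ t)
      (N.field (clamp (boxLo N c x₀) (boxHi N c x₀) (α ⌈t⌉₊ t))) (Ici 0) t := by
    intro t ht
    have htn : t < ((⌈t⌉₊ + 1 : ℕ) : ℝ) + 1 := by
      have := Nat.le_ceil t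
      push_cast; linarith
    have h1 := hα (⌈t⌉₊ + 1) t ⟨ht, htn.le⟩
    have h2 : HasDerivWithinAt (fun t => α ⌈t⌉₊ t)
        (N.field (clamp (boxLo N c x₀) (boxHi N c x₀) (α (⌈t⌉₊ + 1) t)))
        (Icc 0 (((⌈t⌉₊ + 1 : ℕ) : ℝ) + 1)) t :=
      h1.congr (fun s hs => hx (⌈t⌉₊ + 1) s hs.1 hs.2) (hx (⌈t⌉₊ + 1) t ht htn.le)
    rw [hx (⌈t⌉₊ + 1) t ht htn.le]
    exact Icc_to_Ici0 htn h2
  have hxsol : ∀ t, 0 ≤ t → HasDerivWithinAt (fun t => α ⌈t⌉₊ t)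
      (N.field (α ⌈t⌉₊ t)) (Ici 0) t := by
    intro t ht
    have := hxg t ht
    rwa [clamp_eq (hxbox t ht)] at this
  refine ⟨fun t => α ⌈t⌉₊ t, hα0 _, hxsol, hxbox, ?_⟩
  intro T z hz hz0 t ht htT
  have hzc : ContinuousOn z (Icc 0 t) := fun s hs =>
    ((hz s hs.1 (lt_of_le_of_lt hs.2 htT)).continuousWithinAt).mono (fun τ hτ => hτ.1)
  have hzI : ∀ s ∈ Ico (0 : ℝ) t, HasDerivWithinAt z (N.field (z s)) (Ici s) s := fun s hs =>
    (hz s hs.1 (hs.2.trans htT)).mono (fun τ hτ => hs.1.trans hτ)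
  have hxc : ContinuousOn (fun t => α ⌈t⌉₊ t) (Icc 0 t) := fun s hs =>
    ((hxsol s hs.1).continuousWithinAt).mono (fun τ hτ => hτ.1)
  have hxI : ∀ s ∈ Ico (0 : ℝ) t, HasDerivWithinAt (fun t => α ⌈t⌉₊ t)
      (N.field (α ⌈s⌉₊ s)) (Ici s) s := fun s hs =>
    (hxsol s hs.1).mono (fun τ hτ => hs.1.trans hτ)
  obtain ⟨C₁, hC₁⟩ := isCompact_Icc.exists_bound_of_continuousOn hzc
  obtain ⟨C₂, hC₂⟩ := isCompact_Icc.exists_bound_of_continuousOn hxc
  obtain ⟨K', hK'⟩ := LocallyLipschitzOn.exists_lipschitzOnWith_of_compact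
    (isCompact_closedBall (0 : Fin d → ℝ) (max C₁ C₂))
    ((contDiff_field N).locallyLipschitz.locallyLipschitzOn)
  have h0 : z 0 = α ⌈(0 : ℝ)⌉₊ 0 := by rw [hz0]; exact (hα0 _).symm
  exact ODE_solution_unique_of_mem_Icc_right (v := fun _ => N.field)
    (s := fun _ => closedBall (0 : Fin d → ℝ) (max C₁ C₂)) (K := K')
    (fun _ _ => hK') hzc hzI
    (fun s hs => mem_closedBall_zero_iff.2 ((hC₁ s ⟨hs.1, hs.2.le⟩).trans (le_max_left _ _)))
    hxc hxI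
    (fun s hs => mem_closedBall_zero_iff.2 ((hC₂ s ⟨hs.1, hs.2.le⟩).trans (le_max_right _ _)))
    h0 ⟨ht, le_rfl⟩

end Vale.Agent.Lib.P072
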