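import Vale.Agent.Lib.P072.Existence

/-!
Permanence of the mass-action systems of the networks of the class `LineWR`.
-/

namespace Vale.Agent.Lib.P072

open Set

variable {d : ℕ}

theorem lineWR_weaklyReversible {N : Net d} (hN : N.LineWR) : N.WeaklyReversible := by
  intro r hr
  obtain ⟨i, _, h⟩ := hN r hr
  exact Relation.ReflTransGen.mono (fun a b (hab : N.lineStep i a b) => hab.1) _ _ h

theorem reversible_lineWR {N : Net d} (hrev : ∀ r ∈ N.R, (r.2, r.1) ∈ N.R)
    (hone : ∀ r ∈ N.R, ∃ i, ∀ j, j ≠ i → r.2 j = r.1 j) : N.LineWR := by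
  intro r hr
  obtain ⟨i, hi⟩ := hone r hr
  exact ⟨i, hi, Relation.ReflTransGen.single ⟨hrev r hr, fun j hj => (hi j hj).symm⟩⟩

theorem exists_rate_lower {N : Net d} (hV : N.Valid) : ∃ c : ℝ, 0 < c ∧ ∀ r ∈ N.R, c ≤ N.k r := by
  by_cases hne : N.R.Nonempty
  · obtain ⟨r₀, hr₀, hmin⟩ := Finset.exists_min_image N.R N.k hne
    exact ⟨N.k r₀, (hV r₀ hr₀).2, hmin⟩
  · rw [Finset.not_nonempty_iff_eq_empty] at hne
    exact ⟨1, one_pos, fun r hr => by rw [hne] at hr; exact absurd hr (Finset.notMem_empty r)⟩

theorem stoich_inactive {N : Net d} {v : Fin d → ℝ} (hv : v ∈ N.stoich) {j : Fin d}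
    (hj : ¬ N.Active j) : v j = 0 := by
  unfold Net.stoich at hv
  induction hv using Submodule.span_induction with
  | mem x hx =>
    obtain ⟨r, hr, rfl⟩ := hx
    have : r.1 j = r.2 j := by
      by_contra h
      exact hj ⟨r, hr, h⟩
    unfold rvec
    rw [this]; ring
  | zero => rfl
  | add x y _ _ hx hy => simp [hx, hy]
  | smul a x _ hx => simp [hx]

theorem single_mem_stoich {N : Net d} (hN : N.LineWR) {i : Fin d} (hi : N.Active i) :
    (fun j => if i = j then (1 : ℝ) else 0) ∈ N.stoich := by
  obtain ⟨r, hr, hne⟩ := hi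
  obtain ⟨i', h1, _⟩ := hN r hr
  have hii : i' = i := by
    by_contra h
    exact hne (h1 i (fun h' => h h'.symm)).symm
  subst hii
  have hne' : rvec r i' ≠ 0 := by
    unfold rvec
    intro h
    apply hne
    have : (r.2 i' : ℝ) = (r.1 i' : ℝ) := by linarith
    exact_mod_cast this.symm
  have hmem : rvec r ∈ N.stoich := Submodule.subset_span ⟨r, hr, rfl⟩
  have heq : (fun j => if i' = j then (1 : ℝ) else 0) = (rvec r i')⁻¹ • rvec r := by
    funext j
    by_cases hj : i' = j
    · subst hj
      simp [hne']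
    · have : rvec r j = 0 := by
        unfold rvec
        rw [h1 j (fun h => hj h.symm)]; ring
      simp [hj, this]
  rw [heq]
  exact N.stoich.smul_mem _ hmem

theorem mem_stoich_of_inactive {N : Net d} (hN : N.LineWR) {v : Fin d → ℝ}
    (hv : ∀ j, ¬ N.Active j → v j = 0) : v ∈ N.stoich := by
  rw [pi_eq_sum_univ v]
  apply Submodule.sum_mem
  intro i _
  by_cases hi : N.Active i
  · exact N.stoich.smul_mem _ (single_mem_stoich hN hi)
  · rw [hv i hi, zero_smul]
    exact N.stoich.zero_mem

theorem lineWR_permanent {N : Net d} (hV : N.Valid) (hN : N.LineWR) (c : Fin d → ℝ)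
    (hcpos : ∀ i, 0 < c i) : N.PermanentOn c := by
  classical
  obtain ⟨c₀, hc0, hc⟩ := exists_rate_lower hV
  constructor
  · intro x₀ hx₀
    obtain ⟨x, hx0, hsol, hbox, huniq⟩ := exists_global hN hc0 hc x₀ hx₀.1
    refine ⟨x, hx0, hsol, ?_, huniq⟩
    intro t ht
    constructor
    · intro i
      exact lt_of_lt_of_le (boxLo_pos N hc0 hc hx₀.1 i) (hbox t ht i).1
    · apply mem_stoich_of_inactive hN
      intro j hj
      have h1 : boxLo N c₀ x₀ j = x₀ j := by unfold boxLo; rw [if_neg hj]
      have h2 : boxHi N c₀ x₀ j = x₀ j := by unfold boxHi; rw [if_neg hj]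
      have h3 : x t j = x₀ j := le_antisymm (h2 ▸ (hbox t ht j).2) (h1 ▸ (hbox t ht j).1)
      have h4 : (x₀ - c) j = 0 := stoich_inactive hx₀.2 hj
      have h5 : x₀ j = c j := by
        have : x₀ j - c j = 0 := h4
        linarith
      show x t j - c j = 0
      rw [h3, h5]; ring
  · refine ⟨Set.pi Set.univ
      (fun i => if N.Active i then Icc (lo N c₀ i) (hi N c₀ i) else {c i}), ?_, ?_, ?_⟩
    · apply isCompact_univ_pi
      intro i
      split_ifs
      · exact isCompact_Icc
      · exact isCompact_singleton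
    · intro x hx
      have hx' : ∀ i, x i ∈ (if N.Active i then Icc (lo N c₀ i) (hi N c₀ i) else {c i}) :=
        fun i => hx i (mem_univ i)
      constructor
      · intro i
        have := hx' i
        by_cases hi : N.Active i
        · rw [if_pos hi] at this
          exact lt_of_lt_of_le (lo_pos N hc0 hc i) this.1
        · rw [if_neg hi] at this
          rw [mem_singleton_iff.1 this]
          exact hcpos i
      · apply mem_stoich_of_inactive hN
        intro j hj
        have := hx' j
        rw [if_neg hj] at this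
        show x j - c j = 0
        rw [mem_singleton_iff.1 this]; ring
    · intro x hsol hx0
      have hpos : ∀ t, 0 ≤ t → ∀ i, 0 < x t i := by
        obtain ⟨x', _, _, hbox', huniq⟩ := exists_global hN hc0 hc (x 0) hx0.1
        intro t ht i
        rw [huniq (t + 1) x (fun s hs _ => hsol s hs) rfl t ht (by linarith)]
        exact lt_of_lt_of_le (boxLo_pos N hc0 hc hx0.1 i) (hbox' t ht i).1
      obtain ⟨T, hT0, hT⟩ := absorb hN hc0 hc hsol hpos
      refine ⟨T, fun t ht i _ => ?_⟩
      show x t i ∈ (if N.Active i then Icc (lo N c₀ i) (hi N c₀ i) else {c i})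
      by_cases hi : N.Active i
      · rw [if_pos hi]
        exact hT t ht i hi
      · rw [if_neg hi]
        have hb := hsol.box hN hc0 hc hpos t (hT0.trans ht) i
        have h1 : boxLo N c₀ (x 0) i = x 0 i := by unfold boxLo; rw [if_neg hi]
        have h2 : boxHi N c₀ (x 0) i = x 0 i := by unfold boxHi; rw [if_neg hi]
        have h3 : x t i = x 0 i := le_antisymm (h2 ▸ hb.2) (h1 ▸ hb.1)
        have h4 : (x 0 - c) i = 0 := stoich_inactive hx0.2 hi
        have h5 : x 0 i = c i := by
          have : x 0 i - c i = 0 := h4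
          linarith
        rw [mem_singleton_iff, h3, h5]

end Vale.Agent.Lib.P072
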